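import Vale.Agent.Lib.P302.Inst68

/-!
# P302: an explicit bin packing instance with OPT - LP at least 443/360

The instance has 68 items of sizes `e / 39798`.  Every packing needs at least 24 bins, and the
Gilmore-Gomory configuration LP has a feasible solution of value `8197 / 360`.  Hence
`OPT - LP ≥ 24 - 8197 / 360 = 443 / 360`.
-/

namespace Vale.Agent.Results.P302.GapAboveFiftyNineFortyEighths
open Vale.Agent.Lib.P302

theorem result :
    ∃ a : List ℚ,
      a = ([18061, 18058, 18050, 18030, 18028, 18022, 17974, 17972, 17966, 17862, 17860, 17854,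
          17638, 17636, 17630, 17190, 17188, 14474, 14472, 14468, 12666, 12665, 12664, 12663,
          12662, 12660, 11307, 11307, 11305, 11304, 11303, 11083, 11083, 11081, 11080, 11079,
          10971, 10971, 10969, 10968, 10967, 10915, 10915, 10913, 10912, 10911, 10887, 10887,
          10885, 10884, 10883, 10874, 10873, 10870, 10868, 10866, 10860, 10860, 10860, 28950,
          28948, 28944, 5428, 5427, 5426, 5425, 5424, 5422] : List ℕ).map
          (fun e : ℕ => (e : ℚ) / 39798) ∧
      (∀ s ∈ a, 0 < s ∧ s ≤ 1) ∧
      (∀ k : ℕ, ∀ f : Fin a.length → Fin k, IsPacking a k f → 24 ≤ k) ∧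
      (∃ z : (ℚ →₀ ℕ) →₀ ℝ, IsFractional a z ∧ (z.sum fun _ w => w) = 8197 / 360) ∧
      24 ≤ opt a ∧ lp a ≤ 8197 / 360 ∧ (443 : ℝ) / 360 ≤ (opt a : ℝ) - lp a := by
  have hcap : ((Inst68.cap : ℕ) : ℚ) = 39798 := by norm_num [Inst68.cap]
  have hitems : Inst68.items = [18061, 18058, 18050, 18030, 18028, 18022, 17974, 17972, 17966, 17862, 17860, 17854,
          17638, 17636, 17630, 17190, 17188, 14474, 14472, 14468, 12666, 12665, 12664, 12663,
          12662, 12660, 11307, 11307, 11305, 11304, 11303, 11083, 11083, 11081, 11080, 11079,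
          10971, 10971, 10969, 10968, 10967, 10915, 10915, 10913, 10912, 10911, 10887, 10887,
          10885, 10884, 10883, 10874, 10873, 10870, 10868, 10866, 10860, 10860, 10860, 28950,
          28948, 28944, 5428, 5427, 5426, 5425, 5424, 5422] := by
    decide
  have ha : scaled Inst68.cap Inst68.items
      = ([18061, 18058, 18050, 18030, 18028, 18022, 17974, 17972, 17966, 17862, 17860, 17854,
          17638, 17636, 17630, 17190, 17188, 14474, 14472, 14468, 12666, 12665, 12664, 12663,
          12662, 12660, 11307, 11307, 11305, 11304, 11303, 11083, 11083, 11081, 11080, 11079,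
          10971, 10971, 10969, 10968, 10967, 10915, 10915, 10913, 10912, 10911, 10887, 10887,
          10885, 10884, 10883, 10874, 10873, 10870, 10868, 10866, 10860, 10860, 10860, 28950,
          28948, 28944, 5428, 5427, 5426, 5425, 5424, 5422] : List ℕ).map
          (fun e : ℕ => (e : ℚ) / 39798) := by
    unfold scaled
    rw [hcap, hitems]
  refine ⟨scaled Inst68.cap Inst68.items, ha, ?_, ?_, ?_, Inst68.optBound, Inst68.lpBound,
    Inst68.gapBound⟩
  · intro s hs
    rw [ha, List.mem_map] at hs
    obtain ⟨e, he, rfl⟩ := hs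
    have hb : ∀ e ∈ ([18061, 18058, 18050, 18030, 18028, 18022, 17974, 17972, 17966, 17862, 17860, 17854,
          17638, 17636, 17630, 17190, 17188, 14474, 14472, 14468, 12666, 12665, 12664, 12663,
          12662, 12660, 11307, 11307, 11305, 11304, 11303, 11083, 11083, 11081, 11080, 11079,
          10971, 10971, 10969, 10968, 10967, 10915, 10915, 10913, 10912, 10911, 10887, 10887,
          10885, 10884, 10883, 10874, 10873, 10870, 10868, 10866, 10860, 10860, 10860, 28950,
          28948, 28944, 5428, 5427, 5426, 5425, 5424, 5422] : List ℕ),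
        0 < e ∧ e ≤ 39798 := by decide
    obtain ⟨h0, h1⟩ := hb e he
    have h0q : (0 : ℚ) < (e : ℚ) := by exact_mod_cast h0
    have h1q : (e : ℚ) ≤ 39798 := by exact_mod_cast h1
    constructor
    · positivity
    · rw [div_le_one (by norm_num)]
      exact h1q
  · intro k f hf
    have hopt := Inst68.optBound
    have hk : opt (scaled Inst68.cap Inst68.items) ≤ k := by
      unfold opt
      exact Nat.sInf_le ⟨f, hf⟩
    omega
  · have hfr := (lp_le_of_cover Inst68.cap (by decide) Inst68.items 360 (by decide) Inst68.cfgs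
      (by decide +kernel) (by decide +kernel)).1
    refine ⟨zF Inst68.cap 360 Inst68.cfgs, hfr, ?_⟩
    rw [zF_sum Inst68.cap 360 Inst68.cfgs _ (by intro a; rfl) (by intro a b1 b2; rfl)]
    norm_num [Inst68.cfgs]

end Vale.Agent.Results.P302.GapAboveFiftyNineFortyEighths
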