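import Vale.Agent.Lib.P302.LargeFinal

/-!
Bin packing instances in which every item size exceeds `1/3`: the optimum `opt a` and the value
`lp a` of the Gilmore-Gomory configuration LP satisfy `opt a ≤ lp a + 1/2`, hence
`opt a = ⌈lp a⌉` (the integer round-up property), and the constant `1/2` is attained.
-/

namespace Vale.Agent.Results.P302.LargeItemsRoundUp

open Vale.Agent.Lib.P302

theorem result :
    (∀ a : List ℚ, (∀ s ∈ a, 1 / 3 < s ∧ s ≤ 1) →
        (opt a : ℝ) ≤ lp a + 1 / 2 ∧ (opt a : ℤ) = ⌈lp a⌉) ∧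
    (∃ a : List ℚ, (∀ s ∈ a, 1 / 3 < s ∧ s ≤ 1) ∧ (opt a : ℝ) = lp a + 1 / 2) :=
  ⟨large_main, large_sharp⟩

end Vale.Agent.Results.P302.LargeItemsRoundUp
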